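import Mathlib
import Vale.Agent.P262.Gauss.Tails

/-!
The standard Gaussian measure on Euclidean space with its density, and the midpoint
Prekopa-Leindler inequality for Gaussian weighted set integrals.
-/

open MeasureTheory ProbabilityTheory Set
open scoped ENNReal RealInnerProductSpace
open Vale.Agent.P262.Gauss

namespace Vale.Agent.P245

abbrev Euc (n : ℕ) := EuclideanSpace ℝ (Fin n)

lemma gpi_density : ∀ (n : ℕ) (k : (Fin n → ℝ) → ℝ≥0∞), Measurable k →
    ∫⁻ x, k x ∂(gpi n) = ∫⁻ x, ENNReal.ofReal (∏ i, dens (x i)) * k x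
  | 0, k, _ => by
    have hv : (volume : Measure (Fin 0 → ℝ)) univ = 1 := by
      simp [volume_pi]
    rw [lintegral_unique, lintegral_unique, measure_univ, hv]
    simp
  | n + 1, k, hk => by
    have hcons : Measurable fun p : ℝ × (Fin n → ℝ) => (Fin.cons p.1 p.2 : Fin (n + 1) → ℝ) := by
      refine measurable_pi_lambda _ fun i => ?_
      refine Fin.cases ?_ (fun j => ?_) i
      · simpa using measurable_fst
      · simpa [Function.comp_def] using (measurable_pi_apply j).comp measurable_snd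
    have hmp : Measure.map (fun p : ℝ × (Fin n → ℝ) => (Fin.cons p.1 p.2 : Fin (n + 1) → ℝ))
        ((volume : Measure ℝ).prod (volume : Measure (Fin n → ℝ))) = volume := by
      have h := (volume_preserving_piFinSuccAbove (fun _ : Fin (n + 1) => ℝ) 0).symm.map_eq
      rw [Measure.volume_eq_prod] at h
      convert h using 2
      funext p
      simp [MeasurableEquiv.piFinSuccAbove, Fin.insertNthEquiv, Fin.insertNth_zero']
    have hd : Measurable fun x : Fin (n + 1) → ℝ => ENNReal.ofReal (∏ i, dens (x i)) * k x :=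
      ((Finset.measurable_prod _ fun i _ => measurable_dens.comp (measurable_pi_apply i))
        |>.ennreal_ofReal).mul hk
    rw [← map_cons_gpi n, lintegral_map hk hcons, ← hmp, lintegral_map hd hcons,
      lintegral_prod (fun p : ℝ × (Fin n → ℝ) => k (Fin.cons p.1 p.2)) (hk.comp hcons).aemeasurable,
      lintegral_prod (fun p : ℝ × (Fin n → ℝ) =>
        ENNReal.ofReal (∏ i, dens ((Fin.cons p.1 p.2 : Fin (n + 1) → ℝ) i)) * k (Fin.cons p.1 p.2))
        (hd.comp hcons).aemeasurable,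
      lintegral_gaussian (f := fun s => ∫⁻ y, k (Fin.cons s y) ∂gpi n)
        (Measurable.lintegral_prod_right'
          (f := fun p : ℝ × (Fin n → ℝ) => k (Fin.cons p.1 p.2)) (hk.comp hcons))]
    refine lintegral_congr fun s => ?_
    simp only
    rw [gpi_density n (fun y => k (Fin.cons s y)) (hk.comp (hcons.comp measurable_prodMk_left)),
      ← lintegral_const_mul' _ _ ENNReal.ofReal_ne_top]
    refine lintegral_congr fun y => ?_
    simp only [Fin.prod_univ_succ, Fin.cons_zero, Fin.cons_succ]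
    rw [ENNReal.ofReal_mul (dens_nonneg s), mul_assoc]

/-- The standard Gaussian measure. -/
noncomputable def gam (n : ℕ) : Measure (Euc n) := (gpi n).map (WithLp.toLp 2)

lemma measurable_toLp' (n : ℕ) : Measurable (WithLp.toLp 2 : (Fin n → ℝ) → Euc n) :=
  (PiLp.continuous_toLp 2 _).measurable

instance (n : ℕ) : IsProbabilityMeasure (gam n) :=
  Measure.isProbabilityMeasure_map (measurable_toLp' n).aemeasurable

/-- Normalising constant. -/
noncomputable def gconst (n : ℕ) : ℝ≥0∞ := ENNReal.ofReal ((Real.sqrt (2 * Real.pi))⁻¹ ^ n)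

lemma gam_eq {n : ℕ} {k : Euc n → ℝ≥0∞} (hk : Measurable k) :
    ∫⁻ x, k x ∂(gam n)
      = gconst n * ∫⁻ x, ENNReal.ofReal (Real.exp (-‖x‖ ^ 2 / 2)) * k x := by
  have hm := measurable_toLp' n
  rw [gam, lintegral_map hk hm, gpi_density n (fun x => k (WithLp.toLp 2 x)) (hk.comp hm),
    ← (PiLp.volume_preserving_toLp (Fin n)).lintegral_comp (by fun_prop), gconst,
    ← lintegral_const_mul' _ _ ENNReal.ofReal_ne_top]
  refine lintegral_congr fun x => ?_
  rw [← mul_assoc, ← ENNReal.ofReal_mul (by positivity)]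
  congr 2
  simp_rw [dens_eq, Finset.prod_mul_distrib, Finset.prod_const, Finset.card_univ, Fintype.card_fin,
    ← Real.exp_sum, EuclideanSpace.norm_sq_eq, Real.norm_eq_abs, sq_abs, ← Finset.sum_div,
    Finset.sum_neg_distrib]

lemma gam_scale {n : ℕ} {τ : ℝ} (hτ : 0 < τ) {k : Euc n → ℝ≥0∞} (hk : Measurable k) :
    ∫⁻ x, k ((Real.sqrt τ)⁻¹ • x) ∂(gam n) = gconst n * ENNReal.ofReal (Real.sqrt τ ^ n) *
      ∫⁻ x, ENNReal.ofReal (Real.exp (-(τ * ‖x‖ ^ 2) / 2)) * k x := by
  have hs : 0 < Real.sqrt τ := Real.sqrt_pos.2 hτ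
  rw [gam_eq (by fun_prop), mul_assoc]
  congr 1
  have h := Measure.map_addHaar_smul (volume : Measure (Euc n)) (inv_ne_zero hs.ne')
  have he : ∀ x : Euc n, Real.exp (-(τ * ‖(Real.sqrt τ)⁻¹ • x‖ ^ 2) / 2)
      = Real.exp (-‖x‖ ^ 2 / 2) := by
    intro x
    rw [norm_smul, Real.norm_eq_abs, abs_of_pos (inv_pos.2 hs), mul_pow, inv_pow,
      Real.sq_sqrt hτ.le, ← mul_assoc, mul_inv_cancel₀ hτ.ne', one_mul]
  calc ∫⁻ x, ENNReal.ofReal (Real.exp (-‖x‖ ^ 2 / 2)) * k ((Real.sqrt τ)⁻¹ • x)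
      = ∫⁻ x, (fun y => ENNReal.ofReal (Real.exp (-(τ * ‖y‖ ^ 2) / 2)) * k y)
          ((Real.sqrt τ)⁻¹ • x) := by simp only [he]
    _ = ∫⁻ y, ENNReal.ofReal (Real.exp (-(τ * ‖y‖ ^ 2) / 2)) * k y
          ∂(Measure.map (fun x : Euc n => (Real.sqrt τ)⁻¹ • x) volume) := by
        rw [lintegral_map (by fun_prop) (by fun_prop)]
    _ = _ := by
        rw [h, lintegral_smul_measure, finrank_euclideanSpace_fin, inv_pow, inv_inv,
          abs_of_pos (by positivity), smul_eq_mul]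

lemma gconst_ne (n : ℕ) : gconst n ≠ 0 ∧ gconst n ≠ ⊤ := by
  constructor
  · rw [gconst, Ne, ENNReal.ofReal_eq_zero, not_le]; positivity
  · exact ENNReal.ofReal_ne_top

lemma midLC_gam_smul (n : ℕ) (s : ℝ) :
    MidLC ((gam n).map fun x => s • x) := by
  have h1 : MidLC (gam n) :=
    (midLC_gpi n).map (WithLp.linearEquiv 2 ℝ (Fin n → ℝ)).symm.toLinearMap (measurable_toLp' n)
  exact h1.map (s • LinearMap.id) (by
    show Measurable fun x : Euc n => s • x
    fun_prop)

/-- Two sets at which a Gaussian weighted log-concave density gains a factor `e^{-K}`. -/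
lemma two_set {n : ℕ} {τ : ℝ} (hτ : 0 < τ) {ψ : Euc n → ℝ} (hψm : Measurable ψ)
    (hψ0 : ∀ x, 0 ≤ ψ x) {K : ℝ} {A B : Set (Euc n)} (hA : MeasurableSet A)
    (hB : MeasurableSet B)
    (h : ∀ x ∈ A, ∀ y ∈ B,
      ψ x * ψ y ≤ Real.exp (-K) * ψ ((2 : ℝ)⁻¹ • (x + y)) ^ 2) :
    (∫⁻ x in A, ENNReal.ofReal (ψ x * Real.exp (-(τ * ‖x‖ ^ 2) / 2))) *
      (∫⁻ x in B, ENNReal.ofReal (ψ x * Real.exp (-(τ * ‖x‖ ^ 2) / 2)))
      ≤ ENNReal.ofReal (Real.exp (-K)) *
        (∫⁻ x, ENNReal.ofReal (ψ x * Real.exp (-(τ * ‖x‖ ^ 2) / 2))) ^ 2 := by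
  set s := (Real.sqrt τ)⁻¹ with hs
  set μ := (gam n).map fun x => s • x with hμ
  set C := gconst n * ENNReal.ofReal (Real.sqrt τ ^ n) with hC
  have hC0 : C ≠ 0 := mul_ne_zero (gconst_ne n).1 (by
    rw [Ne, ENNReal.ofReal_eq_zero, not_le]; positivity)
  have hCt : C ≠ ⊤ := ENNReal.mul_ne_top (gconst_ne n).2 ENNReal.ofReal_ne_top
  set q := fun x => ENNReal.ofReal (ψ x) with hq
  have hqm : Measurable q := hψm.ennreal_ofReal
  set e := ENNReal.ofReal (Real.exp (-K)) with he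
  set c := ENNReal.ofReal (Real.exp (-K / 2)) with hc
  have hec : c * c = e := by
    rw [hc, he, ← ENNReal.ofReal_mul (Real.exp_pos _).le, ← Real.exp_add]; ring_nf
  have key : ∀ N : ℕ, (∫⁻ x, min (A.indicator q x) N ∂μ) * (∫⁻ x, min (B.indicator q x) N ∂μ)
      ≤ e * (∫⁻ x, q x ∂μ) ^ 2 := by
    intro N
    rcases Nat.eq_zero_or_pos N with rfl | hN
    · simp
    have hN0 : (N : ℝ≥0∞) ≠ 0 := by simp [hN.ne']
    have hNt : (N : ℝ≥0∞) ≠ ⊤ := ENNReal.natCast_ne_top N
    have := midLC_gam_smul n s (fun x => min (A.indicator q x) N / N)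
      (fun x => min (B.indicator q x) N / N) (fun x => min (c * q x / N) 1)
      (((hqm.indicator hA).min measurable_const).div_const _)
      (((hqm.indicator hB).min measurable_const).div_const _)
      (((hqm.const_mul c).div_const _).min measurable_const)
      (fun x => ENNReal.div_le_of_le_mul (by simp))
      (fun x => ENNReal.div_le_of_le_mul (by simp)) (fun x => min_le_right _ _)
      (fun x y => by
        by_cases hx : x ∈ A
        swap
        · simp [hx]
        by_cases hy : y ∈ B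
        swap
        · simp [hy]
        simp only [indicator_of_mem, hx, hy]
        rcases le_total (c * q ((2 : ℝ)⁻¹ • (x + y)) / N) 1 with h1 | h1
        · rw [min_eq_left h1]
          calc min (q x) N / N * (min (q y) N / N) ≤ q x / N * (q y / N) := by
                gcongr <;> exact min_le_left _ _
            _ = q x * q y / N / N := by simp only [div_eq_mul_inv]; ring
            _ ≤ e * q ((2 : ℝ)⁻¹ • (x + y)) ^ 2 / N / N := by
                refine ENNReal.div_le_div_right (ENNReal.div_le_div_right ?_ _) _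
                simp only [hq, he]
                rw [← ENNReal.ofReal_mul (hψ0 x), ← ENNReal.ofReal_pow (hψ0 _),
                  ← ENNReal.ofReal_mul (Real.exp_pos _).le]
                exact ENNReal.ofReal_le_ofReal (h x hx y hy)
            _ = (c * q ((2 : ℝ)⁻¹ • (x + y)) / N) ^ 2 := by
                rw [← hec]; simp only [div_eq_mul_inv]; ring
        · rw [min_eq_right h1, one_pow]
          exact mul_le_one' (ENNReal.div_le_of_le_mul (by simp))
            (ENNReal.div_le_of_le_mul (by simp)))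
    simp only [div_eq_mul_inv] at this
    rw [lintegral_mul_const _ ((hqm.indicator hA).min measurable_const),
      lintegral_mul_const _ ((hqm.indicator hB).min measurable_const)] at this
    have h2 : ∫⁻ x, min (c * q x * (N : ℝ≥0∞)⁻¹) 1 ∂μ ≤ c * (∫⁻ x, q x ∂μ) * (N : ℝ≥0∞)⁻¹ := by
      rw [← lintegral_const_mul _ hqm, ← lintegral_mul_const _ (hqm.const_mul c)]
      exact lintegral_mono fun x => min_le_left _ _
    have h3 := this.trans (pow_le_pow_left₀ zero_le h2 2)
    have hi : (N : ℝ≥0∞) * (N : ℝ≥0∞)⁻¹ = 1 := ENNReal.mul_inv_cancel hN0 hNt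
    calc _ = (∫⁻ x, min (A.indicator q x) N ∂μ) * (∫⁻ x, min (B.indicator q x) N ∂μ) *
          ((N : ℝ≥0∞) * (N : ℝ≥0∞)⁻¹) ^ 2 := by rw [hi, one_pow, mul_one]
      _ = (∫⁻ x, min (A.indicator q x) N ∂μ) * (N : ℝ≥0∞)⁻¹ *
          ((∫⁻ x, min (B.indicator q x) N ∂μ) * (N : ℝ≥0∞)⁻¹) * ((N : ℝ≥0∞) * N) := by ring
      _ ≤ (c * (∫⁻ x, q x ∂μ) * (N : ℝ≥0∞)⁻¹) ^ 2 * ((N : ℝ≥0∞) * N) := by gcongr
      _ = c * c * (∫⁻ x, q x ∂μ) ^ 2 * (((N : ℝ≥0∞) * (N : ℝ≥0∞)⁻¹) ^ 2) := by ring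
      _ = _ := by rw [hi, hec]; simp
  have hmono : ∀ k : Euc n → ℝ≥0∞, Monotone fun N : ℕ => ∫⁻ x, min (k x) N ∂μ :=
    fun k a b hab => lintegral_mono fun x => min_le_min le_rfl (Nat.cast_le.2 hab)
  have hsup : ∀ k : Euc n → ℝ≥0∞, Measurable k →
      ∫⁻ x, k x ∂μ = ⨆ N : ℕ, ∫⁻ x, min (k x) N ∂μ := by
    intro k hk
    rw [← lintegral_iSup (f := fun (N : ℕ) x => min (k x) (N : ℝ≥0∞))
      (fun N => hk.min measurable_const)
      (fun a b hab x => min_le_min (le_refl (k x)) (Nat.cast_le.2 hab))]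
    refine lintegral_congr fun x => le_antisymm ?_ (iSup_le fun N => min_le_left _ _)
    refine le_of_forall_lt fun r hr => lt_iSup_iff.2 ?_
    obtain ⟨N, hN⟩ := ENNReal.exists_nat_gt (ne_top_of_lt hr)
    exact ⟨N, lt_min hr hN⟩
  have hprod : (∫⁻ x, A.indicator q x ∂μ) * (∫⁻ x, B.indicator q x ∂μ)
      ≤ e * (∫⁻ x, q x ∂μ) ^ 2 := by
    rw [hsup _ (hqm.indicator hA), hsup _ (hqm.indicator hB)]
    rw [ENNReal.iSup_mul]
    refine iSup_le fun i => ?_
    rw [ENNReal.mul_iSup]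
    refine iSup_le fun j => ?_
    exact (mul_le_mul' (hmono _ (le_max_left i j)) (hmono _ (le_max_right i j))).trans (key _)
  have hconv : ∀ k : Euc n → ℝ≥0∞, Measurable k → ∫⁻ x, k x ∂μ
      = C * ∫⁻ x, ENNReal.ofReal (Real.exp (-(τ * ‖x‖ ^ 2) / 2)) * k x := by
    intro k hk
    rw [hμ, lintegral_map hk (by fun_prop)]
    exact gam_scale hτ hk
  have hset : ∀ S : Set (Euc n), MeasurableSet S →
      ∫⁻ x, ENNReal.ofReal (Real.exp (-(τ * ‖x‖ ^ 2) / 2)) * S.indicator q x
      = ∫⁻ x in S, ENNReal.ofReal (ψ x * Real.exp (-(τ * ‖x‖ ^ 2) / 2)) := by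
    intro S hS
    rw [← lintegral_indicator hS]
    refine lintegral_congr fun x => ?_
    by_cases hx : x ∈ S
    · simp only [indicator_of_mem hx, hq]
      rw [ENNReal.ofReal_mul (hψ0 x), mul_comm]
    · simp [hx]
  have huniv := hset univ MeasurableSet.univ
  simp only [indicator_univ, Measure.restrict_univ] at huniv
  rw [hconv _ (hqm.indicator hA), hconv _ (hqm.indicator hB), hconv _ hqm, hset A hA, hset B hB,
    huniv, mul_mul_mul_comm, mul_pow, mul_left_comm e, ← sq] at hprod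
  exact (ENNReal.mul_le_mul_iff_right (pow_ne_zero 2 hC0) (ENNReal.pow_ne_top hCt)).1 hprod

/-- Two sets at distance `d` under the standard Gaussian measure. -/
lemma gam_two_set {n : ℕ} {d : ℝ} {A B : Set (Euc n)} (hA : MeasurableSet A)
    (hB : MeasurableSet B) (hd : ∀ x ∈ A, ∀ y ∈ B, d ≤ ‖x - y‖ ^ 2) :
    gam n A * gam n B ≤ ENNReal.ofReal (Real.exp (-(d / 8))) := by
  have h := two_set (n := n) (τ := 1 / 2) (by norm_num)
    (ψ := fun x => Real.exp (-‖x‖ ^ 2 / 4)) (by fun_prop) (fun x => (Real.exp_pos _).le)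
    (K := d / 8) hA hB (fun x hx y hy => by
      rw [← Real.exp_add, ← Real.exp_nat_mul, ← Real.exp_add, Real.exp_le_exp]
      have hp := parallelogram_law_with_norm ℝ x y
      have hm : ‖(2 : ℝ)⁻¹ • (x + y)‖ ^ 2 = ‖x + y‖ ^ 2 / 4 := by
        rw [norm_smul, mul_pow]; norm_num; ring
      have := hd x hx y hy
      push_cast
      nlinarith)
  have hw : ∀ x : Euc n, Real.exp (-‖x‖ ^ 2 / 4) * Real.exp (-(1 / 2 * ‖x‖ ^ 2) / 2)
      = Real.exp (-‖x‖ ^ 2 / 2) := fun x => by rw [← Real.exp_add]; ring_nf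
  simp only [hw] at h
  have hg : ∀ S : Set (Euc n), MeasurableSet S → gam n S
      = gconst n * ∫⁻ x in S, ENNReal.ofReal (Real.exp (-‖x‖ ^ 2 / 2)) := by
    intro S hS
    rw [← lintegral_indicator_one hS, gam_eq (measurable_one.indicator hS),
      ← lintegral_indicator hS]
    congr 1
    refine lintegral_congr fun x => ?_
    by_cases hx : x ∈ S <;> simp [hx]
  have h1 : gconst n * ∫⁻ x : Euc n, ENNReal.ofReal (Real.exp (-‖x‖ ^ 2 / 2)) = 1 := by
    have := hg univ MeasurableSet.univ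
    rw [measure_univ, Measure.restrict_univ] at this
    exact this.symm
  rw [hg A hA, hg B hB, mul_mul_mul_comm]
  refine (mul_le_mul_right h _).trans (le_of_eq ?_)
  calc gconst n * gconst n * (ENNReal.ofReal (Real.exp (-(d / 8))) *
        (∫⁻ x : Euc n, ENNReal.ofReal (Real.exp (-‖x‖ ^ 2 / 2))) ^ 2)
      = ENNReal.ofReal (Real.exp (-(d / 8))) *
        (gconst n * ∫⁻ x : Euc n, ENNReal.ofReal (Real.exp (-‖x‖ ^ 2 / 2))) ^ 2 := by ring
    _ = _ := by rw [h1]; simp

/-- Laplace transform of the standard Gaussian measure. -/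
lemma gam_mgf {n : ℕ} (v : Euc n) :
    ∫⁻ z, ENNReal.ofReal (Real.exp ⟪z, v⟫) ∂(gam n)
      = ENNReal.ofReal (Real.exp (‖v‖ ^ 2 / 2)) := by
  have h1 : gconst n * ∫⁻ x : Euc n, ENNReal.ofReal (Real.exp (-‖x‖ ^ 2 / 2)) = 1 := by
    have := gam_eq (n := n) (k := fun _ => 1) measurable_const
    simpa using this.symm
  have e : ∀ z : Euc n, ENNReal.ofReal (Real.exp (-‖z‖ ^ 2 / 2)) * ENNReal.ofReal (Real.exp ⟪z, v⟫)
      = ENNReal.ofReal (Real.exp (‖v‖ ^ 2 / 2))
        * ENNReal.ofReal (Real.exp (-‖z - v‖ ^ 2 / 2)) := by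
    intro z
    rw [← ENNReal.ofReal_mul (Real.exp_pos _).le, ← ENNReal.ofReal_mul (Real.exp_pos _).le,
      ← Real.exp_add, ← Real.exp_add, norm_sub_sq_real]
    ring_nf
  rw [gam_eq (by fun_prop)]
  simp only [e]
  rw [lintegral_const_mul' _ _ ENNReal.ofReal_ne_top,
    lintegral_sub_right_eq_self (fun z : Euc n => ENNReal.ofReal (Real.exp (-‖z‖ ^ 2 / 2))) v,
    mul_left_comm, h1, mul_one]

/-- Exponential moment of the squared norm. -/
lemma gam_exp_sq {n : ℕ} {c : ℝ} (h0 : 0 ≤ c) (h1 : c ≤ 1 / 4) :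
    ∫⁻ z, ENNReal.ofReal (Real.exp (c * ‖z‖ ^ 2)) ∂(gam n)
      ≤ ENNReal.ofReal (Real.exp (2 * (n * c))) := by
  rw [gam, lintegral_map (by fun_prop) (measurable_toLp' n)]
  have := lintegral_exp_quad (n := n) (fun _ => c) (fun _ => h0) (fun _ => h1)
  simpa [EuclideanSpace.norm_sq_eq, Finset.mul_sum] using this

end Vale.Agent.P245
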