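import Mathlib
import Vale.Agent.P245.Gauss

/-!
The static Gaussian channel of a linearly subgaussian measure: second moments of the masses of
sets after tilting, and existence of one tilt at which two sets both keep their mass.
-/

open MeasureTheory ProbabilityTheory Set
open scoped ENNReal RealInnerProductSpace

namespace Vale.Agent.P245

variable {n : ℕ}

/-- The channel weight. -/
noncomputable def wt (t : ℝ) (z x : Euc n) : ℝ :=
  Real.exp (Real.sqrt t * ⟪z, x⟫ - t * ‖x‖ ^ 2 / 2)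

/-- Mass of a set after the tilt. -/
noncomputable def wmass (μ : Measure (Euc n)) (t : ℝ) (S : Set (Euc n)) (z : Euc n) : ℝ≥0∞ :=
  ∫⁻ x in S, ENNReal.ofReal (wt t z x) ∂μ

/-- Pair weight. -/
noncomputable def pwt (t : ℝ) (z x y : Euc n) : ℝ :=
  wt t z x * wt t z y * Real.exp (t * ⟪x, y⟫)

/-- Pair mass. -/
noncomputable def pmass (μ : Measure (Euc n)) (t : ℝ) (S : Set (Euc n)) (z : Euc n) : ℝ≥0∞ :=
  ∫⁻ x in S, ∫⁻ y in S, ENNReal.ofReal (pwt t z x y) ∂μ ∂μ

lemma wt_pos (t : ℝ) (z x : Euc n) : 0 < wt t z x := Real.exp_pos _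

lemma wt_le {t : ℝ} (ht : 0 ≤ t) (z x : Euc n) : wt t z x ≤ Real.exp (‖z‖ ^ 2 / 2) := by
  unfold wt
  rw [Real.exp_le_exp]
  have h := real_inner_le_norm z x
  nlinarith [Real.sq_sqrt ht, sq_nonneg (Real.sqrt t * ‖x‖ - ‖z‖),
    mul_le_mul_of_nonneg_left h (Real.sqrt_nonneg t)]

lemma measurable_wt (t : ℝ) : Measurable fun p : Euc n × Euc n => wt t p.1 p.2 := by
  unfold wt; fun_prop

variable {μ : Measure (Euc n)} [IsProbabilityMeasure μ] {a t : ℝ}

lemma measurable_wmass (t : ℝ) (S : Set (Euc n)) : Measurable (wmass μ t S) :=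
  Measurable.lintegral_prod_right' (f := fun p : Euc n × Euc n => ENNReal.ofReal (wt t p.1 p.2))
    (measurable_wt t).ennreal_ofReal

lemma measurable_pmass (t : ℝ) (S : Set (Euc n)) : Measurable (pmass μ t S) := by
  refine Measurable.lintegral_prod_right'
    (f := fun p : Euc n × Euc n => ∫⁻ y in S, ENNReal.ofReal (pwt t p.1 p.2 y) ∂μ) ?_
  exact Measurable.lintegral_prod_right'
    (f := fun p : (Euc n × Euc n) × Euc n => ENNReal.ofReal (pwt t p.1.1 p.1.2 p.2))
    (by unfold pwt wt; fun_prop)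

omit [IsProbabilityMeasure μ] in
lemma lap [IsProbabilityMeasure μ] (ha : 0 < a)
    (hsub : ∀ θ : Euc n, ‖θ‖ = 1 → ∫⁻ x, ENNReal.ofReal (Real.exp (⟪x, θ⟫ ^ 2 / a ^ 2)) ∂μ ≤ 2)
    (v : Euc n) :
    ∫⁻ x, ENNReal.ofReal (Real.exp ⟪x, v⟫) ∂μ
      ≤ 2 * ENNReal.ofReal (Real.exp (a ^ 2 * ‖v‖ ^ 2 / 4)) := by
  rcases eq_or_ne v 0 with rfl | hv
  · simp
  have hv' : (0 : ℝ) < ‖v‖ := norm_pos_iff.2 hv
  set θ := ‖v‖⁻¹ • v with hθ
  have hθ1 : ‖θ‖ = 1 := norm_smul_inv_norm hv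
  calc ∫⁻ x, ENNReal.ofReal (Real.exp ⟪x, v⟫) ∂μ
      ≤ ∫⁻ x, ENNReal.ofReal (Real.exp (a ^ 2 * ‖v‖ ^ 2 / 4))
          * ENNReal.ofReal (Real.exp (⟪x, θ⟫ ^ 2 / a ^ 2)) ∂μ := by
        refine lintegral_mono fun x => ?_
        rw [← ENNReal.ofReal_mul (Real.exp_pos _).le, ← Real.exp_add]
        refine ENNReal.ofReal_le_ofReal (Real.exp_le_exp.2 ?_)
        have e : ⟪x, v⟫ = ‖v‖ * ⟪x, θ⟫ := by
          rw [hθ, real_inner_smul_right, ← mul_assoc, mul_inv_cancel₀ hv'.ne', one_mul]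
        have e2 : ⟪x, θ⟫ ^ 2 / a ^ 2 * a ^ 2 = ⟪x, θ⟫ ^ 2 :=
          div_mul_cancel₀ _ (pow_ne_zero 2 ha.ne')
        rw [e]
        refine le_of_mul_le_mul_right ?_ (by positivity : 0 < a ^ 2)
        rw [add_mul, e2]
        nlinarith [sq_nonneg (⟪x, θ⟫ - a ^ 2 * ‖v‖ / 2)]
    _ ≤ ENNReal.ofReal (Real.exp (a ^ 2 * ‖v‖ ^ 2 / 4)) * 2 := by
        rw [lintegral_const_mul' _ _ ENNReal.ofReal_ne_top]
        exact mul_le_mul_right (hsub θ hθ1) _
    _ = _ := mul_comm _ _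

lemma pair_exp (ha : 0 < a)
    (hsub : ∀ θ : Euc n, ‖θ‖ = 1 → ∫⁻ x, ENNReal.ofReal (Real.exp (⟪x, θ⟫ ^ 2 / a ^ 2)) ∂μ ≤ 2)
    {l : ℝ} (hl : 0 ≤ l) (hla : l * a ^ 2 ≤ 1 / 2) :
    ∫⁻ x, ∫⁻ y, ENNReal.ofReal (Real.exp (l * ⟪x, y⟫)) ∂μ ∂μ
      ≤ ENNReal.ofReal (4 * Real.exp (n * (l * a ^ 2) ^ 2 / 4)) := by
  set σ := a * l / Real.sqrt 2 with hσ
  have hσ2 : σ ^ 2 = a ^ 2 * l ^ 2 / 2 := by
    rw [hσ, div_pow, Real.sq_sqrt (by norm_num : (0:ℝ) ≤ 2)]; ring
  set c := (l * a ^ 2) ^ 2 / 8 with hc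
  have hc4 : c ≤ 1 / 4 := by rw [hc]; nlinarith [mul_nonneg hl (sq_nonneg a)]
  have h1 : ∀ x, ∫⁻ y, ENNReal.ofReal (Real.exp (l * ⟪x, y⟫)) ∂μ
      ≤ 2 * ∫⁻ z, ENNReal.ofReal (Real.exp ⟪z, σ • x⟫) ∂(gam n) := by
    intro x
    have h := lap ha hsub (l • x)
    simp only [inner_smul_right] at h
    rw [gam_mgf]
    calc ∫⁻ y, ENNReal.ofReal (Real.exp (l * ⟪x, y⟫)) ∂μ
        = ∫⁻ y, ENNReal.ofReal (Real.exp (l * ⟪y, x⟫)) ∂μ := by simp only [real_inner_comm x]
      _ ≤ _ := h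
      _ = _ := by
        congr 3
        rw [norm_smul, norm_smul, mul_pow, mul_pow, Real.norm_eq_abs, Real.norm_eq_abs, sq_abs,
          sq_abs, hσ2]
        ring
  have h2 : ∀ z : Euc n, ∫⁻ x, ENNReal.ofReal (Real.exp ⟪z, σ • x⟫) ∂μ
      ≤ 2 * ENNReal.ofReal (Real.exp (c * ‖z‖ ^ 2)) := by
    intro z
    have h := lap ha hsub (σ • z)
    simp only [inner_smul_right] at h ⊢
    calc ∫⁻ x, ENNReal.ofReal (Real.exp (σ * ⟪z, x⟫)) ∂μ
        = ∫⁻ x, ENNReal.ofReal (Real.exp (σ * ⟪x, z⟫)) ∂μ := by simp only [real_inner_comm z]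
      _ ≤ _ := h
      _ = _ := by
        congr 3
        rw [norm_smul, mul_pow, Real.norm_eq_abs, sq_abs, hσ2, hc]
        ring
  calc ∫⁻ x, ∫⁻ y, ENNReal.ofReal (Real.exp (l * ⟪x, y⟫)) ∂μ ∂μ
      ≤ ∫⁻ x, 2 * ∫⁻ z, ENNReal.ofReal (Real.exp ⟪z, σ • x⟫) ∂(gam n) ∂μ := lintegral_mono h1
    _ = 2 * ∫⁻ z, ∫⁻ x, ENNReal.ofReal (Real.exp ⟪z, σ • x⟫) ∂μ ∂(gam n) := by
        rw [lintegral_const_mul' _ _ (by simp), lintegral_lintegral_swap]
        exact (by unfold Function.uncurry; fun_prop : Measurable _).aemeasurable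
    _ ≤ 2 * ∫⁻ z, 2 * ENNReal.ofReal (Real.exp (c * ‖z‖ ^ 2)) ∂(gam n) := by
        gcongr with z; exact h2 z
    _ ≤ 2 * (2 * ENNReal.ofReal (Real.exp (2 * (n * c)))) := by
        rw [lintegral_const_mul' _ _ (by simp)]
        gcongr
        exact gam_exp_sq (by positivity) hc4
    _ = _ := by
        rw [show (2 : ℝ≥0∞) = ENNReal.ofReal 2 by simp, ← ENNReal.ofReal_mul (by norm_num),
          ← ENNReal.ofReal_mul (by norm_num), ← mul_assoc, hc]
        congr 1
        norm_num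
        ring

lemma lintegral_wmass (ht : 0 ≤ t) (S : Set (Euc n)) :
    ∫⁻ z, wmass μ t S z ∂(gam n) = μ S := by
  unfold wmass
  rw [lintegral_lintegral_swap]
  swap
  · exact (measurable_wt t).ennreal_ofReal.aemeasurable
  rw [← setLIntegral_one]
  refine lintegral_congr fun x => ?_
  have e : ∀ z : Euc n, ENNReal.ofReal (wt t z x)
      = ENNReal.ofReal (Real.exp (-(t * ‖x‖ ^ 2 / 2)))
        * ENNReal.ofReal (Real.exp ⟪z, Real.sqrt t • x⟫) := by
    intro z
    rw [← ENNReal.ofReal_mul (Real.exp_pos _).le, ← Real.exp_add, wt, real_inner_smul_right]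
    ring_nf
  simp only [e]
  rw [lintegral_const_mul' _ _ ENNReal.ofReal_ne_top, gam_mgf,
    ← ENNReal.ofReal_mul (Real.exp_pos _).le, ← Real.exp_add, norm_smul, mul_pow,
    Real.norm_eq_abs, sq_abs, Real.sq_sqrt ht]
  simp

lemma lintegral_two (ht : 0 ≤ t) (x y : Euc n) (s : ℝ) :
    ∫⁻ z, ENNReal.ofReal (wt t z x * wt t z y * Real.exp s) ∂(gam n)
      = ENNReal.ofReal (Real.exp (t * ⟪x, y⟫ + s)) := by
  have e : ∀ z : Euc n, ENNReal.ofReal (wt t z x * wt t z y * Real.exp s)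
      = ENNReal.ofReal (Real.exp (s - t * (‖x‖ ^ 2 + ‖y‖ ^ 2) / 2))
        * ENNReal.ofReal (Real.exp ⟪z, Real.sqrt t • (x + y)⟫) := by
    intro z
    rw [← ENNReal.ofReal_mul (Real.exp_pos _).le, ← Real.exp_add, wt, wt, ← Real.exp_add,
      ← Real.exp_add, real_inner_smul_right, inner_add_right]
    ring_nf
  simp only [e]
  rw [lintegral_const_mul' _ _ ENNReal.ofReal_ne_top, gam_mgf,
    ← ENNReal.ofReal_mul (Real.exp_pos _).le, ← Real.exp_add, norm_smul, mul_pow,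
    Real.norm_eq_abs, sq_abs, Real.sq_sqrt ht, norm_add_sq_real]
  ring_nf

lemma lintegral_wmass_sq (ht : 0 ≤ t) (S : Set (Euc n)) :
    ∫⁻ z, wmass μ t S z ^ 2 ∂(gam n)
      ≤ ∫⁻ x, ∫⁻ y, ENNReal.ofReal (Real.exp (t * ⟪x, y⟫)) ∂μ ∂μ := by
  have e : ∀ z, wmass μ t S z ^ 2
      = ∫⁻ p, ENNReal.ofReal (wt t z p.1 * wt t z p.2 * Real.exp 0)
          ∂((μ.restrict S).prod (μ.restrict S)) := by
    intro z
    rw [wmass, sq, ← lintegral_prod_mul (by unfold wt; fun_prop) (by unfold wt; fun_prop)]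
    refine lintegral_congr fun p => ?_
    rw [Real.exp_zero, mul_one, ENNReal.ofReal_mul (wt_pos t z p.1).le]
  simp only [e]
  rw [lintegral_lintegral_swap (by unfold Function.uncurry wt; fun_prop)]
  calc ∫⁻ p, ∫⁻ z, ENNReal.ofReal (wt t z p.1 * wt t z p.2 * Real.exp 0) ∂(gam n)
        ∂((μ.restrict S).prod (μ.restrict S))
      = ∫⁻ p, ENNReal.ofReal (Real.exp (t * ⟪p.1, p.2⟫)) ∂((μ.restrict S).prod (μ.restrict S)) := by
        refine lintegral_congr fun p => ?_
        rw [lintegral_two ht, add_zero]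
    _ ≤ ∫⁻ p, ENNReal.ofReal (Real.exp (t * ⟪p.1, p.2⟫)) ∂(μ.prod μ) :=
        lintegral_mono' (Measure.prod_mono Measure.restrict_le_self Measure.restrict_le_self) le_rfl
    _ = _ := lintegral_prod _ (by fun_prop)

lemma lintegral_pmass (ht : 0 ≤ t) (S : Set (Euc n)) :
    ∫⁻ z, pmass μ t S z ∂(gam n)
      ≤ ∫⁻ x, ∫⁻ y, ENNReal.ofReal (Real.exp (2 * t * ⟪x, y⟫)) ∂μ ∂μ := by
  have e : ∀ z, pmass μ t S z = ∫⁻ p, ENNReal.ofReal (pwt t z p.1 p.2)
      ∂((μ.restrict S).prod (μ.restrict S)) := fun z => by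
    rw [lintegral_prod _ (by unfold pwt wt; fun_prop)]; rfl
  simp only [e]
  rw [lintegral_lintegral_swap (by unfold Function.uncurry pwt wt; fun_prop)]
  calc ∫⁻ p, ∫⁻ z, ENNReal.ofReal (pwt t z p.1 p.2) ∂(gam n)
        ∂((μ.restrict S).prod (μ.restrict S))
      = ∫⁻ p, ENNReal.ofReal (Real.exp (2 * t * ⟪p.1, p.2⟫))
          ∂((μ.restrict S).prod (μ.restrict S)) := by
        refine lintegral_congr fun p => ?_
        simp only [pwt]
        rw [lintegral_two ht]
        ring_nf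
    _ ≤ ∫⁻ p, ENNReal.ofReal (Real.exp (2 * t * ⟪p.1, p.2⟫)) ∂(μ.prod μ) :=
        lintegral_mono' (Measure.prod_mono Measure.restrict_le_self Measure.restrict_le_self) le_rfl
    _ = _ := lintegral_prod _ (by fun_prop)

/-- Paley-Zygmund in linear form. -/
lemma pz {α : Type*} [MeasurableSpace α] {ν : Measure α} [IsProbabilityMeasure ν] {F : α → ℝ≥0∞}
    (hF : Measurable F) {p Q : ℝ} (hp : 0 < p) (hQ : 0 < Q)
    (h1 : ENNReal.ofReal p ≤ ∫⁻ z, F z ∂ν) (h2 : ∫⁻ z, F z ^ 2 ∂ν ≤ ENNReal.ofReal Q) :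
    ENNReal.ofReal (p ^ 2 / (4 * Q)) ≤ ν {z | ENNReal.ofReal (p / 2) ≤ F z} := by
  set G := {z | ENNReal.ofReal (p / 2) ≤ F z}
  have hG : MeasurableSet G := measurableSet_le measurable_const hF
  have hb : ∀ z, F z ≤ ENNReal.ofReal (p / 2)
      + (ENNReal.ofReal (p / (4 * Q)) * F z ^ 2
        + ENNReal.ofReal (Q / p) * G.indicator 1 z) := by
    intro z
    by_cases hz : z ∈ G
    · rcases eq_or_ne (F z) ⊤ with hT | hT
      · simp [hT, div_pos hp (by positivity : (0:ℝ) < 4 * Q)]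
      lift F z to NNReal using hT with f
      rw [indicator_of_mem hz, Pi.one_apply, mul_one, ← ENNReal.ofReal_coe_nnreal,
        ← ENNReal.ofReal_pow f.coe_nonneg, ← ENNReal.ofReal_mul (by positivity),
        ← ENNReal.ofReal_add (by positivity) (by positivity),
        ← ENNReal.ofReal_add (by positivity) (by positivity)]
      refine ENNReal.ofReal_le_ofReal ?_
      have key : (f : ℝ) ≤ p / (4 * Q) * (f : ℝ) ^ 2 + Q / p := by
        rw [div_mul_eq_mul_div, div_add_div _ _ (by positivity) hp.ne', le_div_iff₀ (by positivity)]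
        nlinarith [sq_nonneg (p * f - 2 * Q)]
      linarith [half_pos hp]
    · exact (not_le.1 hz).le.trans le_self_add
  have h3 := h1.trans (lintegral_mono hb)
  rw [lintegral_add_left (by fun_prop), lintegral_const, measure_univ, mul_one,
    lintegral_add_left (by fun_prop), lintegral_const_mul' _ _ ENNReal.ofReal_ne_top,
    lintegral_const_mul' _ _ ENNReal.ofReal_ne_top, lintegral_indicator_one hG] at h3
  have h4 : ENNReal.ofReal p ≤ ENNReal.ofReal (p / 2)
      + (ENNReal.ofReal (p / (4 * Q)) * ENNReal.ofReal Q + ENNReal.ofReal (Q / p) * ν G) :=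
    h3.trans (by gcongr)
  rw [← ENNReal.ofReal_toReal (measure_ne_top ν G)] at h4 ⊢
  rw [← ENNReal.ofReal_mul (by positivity), ← ENNReal.ofReal_mul (by positivity),
    ← ENNReal.ofReal_add (by positivity) (by positivity),
    ← ENNReal.ofReal_add (by positivity) (by positivity),
    ENNReal.ofReal_le_ofReal_iff (by positivity)] at h4
  refine ENNReal.ofReal_le_ofReal ?_
  have e : p / (4 * Q) * Q = p / 4 := by field_simp
  rw [e] at h4
  have h5 : p / 4 * p ≤ Q * (ν G).toReal := by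
    have := mul_le_mul_of_nonneg_right (show p / 4 ≤ Q / p * (ν G).toReal by linarith) hp.le
    rwa [mul_assoc, mul_comm (ν G).toReal, ← mul_assoc, div_mul_cancel₀ _ hp.ne'] at this
  rw [div_le_iff₀ (by positivity)]
  linarith

/-- The tilted mean `b` controls the mass under a shift, and the pair mass controls `b`. -/
lemma exists_mean (ht : 0 < t) (S : Set (Euc n)) (z : Euc n) {q : ℝ} (hq : 0 < q)
    (hN : ENNReal.ofReal q ≤ wmass μ t S z) :
    ∃ b : Euc n, ENNReal.ofReal (q ^ 2 * Real.exp (t * ‖b‖ ^ 2)) ≤ pmass μ t S z ∧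
      ∀ z', ENNReal.ofReal (q * Real.exp (-(Real.sqrt t * ‖b‖ * ‖z' - z‖)))
        ≤ wmass μ t S z' := by
  set ν := μ.restrict S
  have hwm : Measurable (wt t z) := by unfold wt; fun_prop
  have hwi : Integrable (wt t z) ν :=
    Integrable.of_bound hwm.aestronglyMeasurable (Real.exp (‖z‖ ^ 2 / 2))
      (Filter.Eventually.of_forall fun x => by
        rw [Real.norm_eq_abs, abs_of_pos (wt_pos t z x)]; exact wt_le ht.le z x)
  have hxi : Integrable (fun x => wt t z x • x) ν :=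
    Integrable.of_bound (hwm.smul measurable_id).aestronglyMeasurable
      (Real.exp ((Real.sqrt t * ‖z‖ + 1) ^ 2 / (2 * t)))
      (Filter.Eventually.of_forall fun x => by
        rw [norm_smul, Real.norm_eq_abs, abs_of_pos (wt_pos t z x)]
        calc wt t z x * ‖x‖ ≤ wt t z x * Real.exp ‖x‖ := by
              gcongr
              · exact (wt_pos t z x).le
              · linarith [Real.add_one_le_exp ‖x‖]
          _ ≤ _ := by
              rw [wt, ← Real.exp_add, Real.exp_le_exp, le_div_iff₀ (by positivity)]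
              have h := mul_le_mul_of_nonneg_left (real_inner_le_norm z x) (Real.sqrt_nonneg t)
              nlinarith [sq_nonneg (t * ‖x‖ - (Real.sqrt t * ‖z‖ + 1))])
  set N := ∫ x, wt t z x ∂ν with hNdef
  have hNe : wmass μ t S z = ENNReal.ofReal N :=
    (ofReal_integral_eq_lintegral_ofReal hwi
      (Filter.Eventually.of_forall fun x => (wt_pos t z x).le)).symm
  have hqN : q ≤ N := by
    rw [hNe] at hN
    have h0 : 0 ≤ N := integral_nonneg fun x => (wt_pos t z x).le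
    exact (ENNReal.ofReal_le_ofReal_iff h0).1 hN
  have hN0 : 0 < N := hq.trans_le hqN
  set b := N⁻¹ • ∫ x, wt t z x • x ∂ν with hb
  have hlin : ∀ v : Euc n, ∀ k : ℝ, Integrable (fun x => wt t z x * (k + ⟪v, x⟫)) ν ∧
      ∫ x, wt t z x * (k + ⟪v, x⟫) ∂ν = N * (k + ⟪v, b⟫) := by
    intro v k
    have i1 : Integrable (fun x => ⟪v, wt t z x • x⟫) ν := hxi.const_inner v
    have e : (fun x => wt t z x * (k + ⟪v, x⟫))
        = fun x => k * wt t z x + ⟪v, wt t z x • x⟫ := by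
      funext x; rw [real_inner_smul_right]; ring
    rw [e]
    refine ⟨(hwi.const_mul k).add i1, ?_⟩
    rw [integral_add (hwi.const_mul k) i1, integral_const_mul, integral_inner hxi, hb,
      real_inner_smul_right, mul_add, ← mul_assoc N N⁻¹, mul_inv_cancel₀ hN0.ne', one_mul,
      mul_comm k]
  have tangent : ∀ c u : ℝ, Real.exp c * (1 + u - c) ≤ Real.exp u := by
    intro c u
    calc Real.exp c * (1 + u - c) ≤ Real.exp c * Real.exp (u - c) := by
          gcongr; linarith [Real.add_one_le_exp (u - c)]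
      _ = _ := by rw [← Real.exp_add]; ring_nf
  have lower : ∀ f : Euc n → ℝ, Integrable f ν →
      ENNReal.ofReal (∫ x, f x ∂ν) ≤ ∫⁻ x, ENNReal.ofReal (f x) ∂ν := by
    intro f hf
    calc ENNReal.ofReal (∫ x, f x ∂ν) ≤ ENNReal.ofReal (∫ x, max (f x) 0 ∂ν) :=
          ENNReal.ofReal_le_ofReal (integral_mono hf hf.pos_part fun x => le_max_left _ _)
      _ = ∫⁻ x, ENNReal.ofReal (max (f x) 0) ∂ν :=
          ofReal_integral_eq_lintegral_ofReal hf.pos_part
            (Filter.Eventually.of_forall fun x => le_max_right _ _)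
      _ = _ := lintegral_congr fun x => by
          rcases le_total (f x) 0 with h | h
          · rw [max_eq_right h, ENNReal.ofReal_zero, ENNReal.ofReal_of_nonpos h]
          · rw [max_eq_left h]
  refine ⟨b, ?_, ?_⟩
  · set c := t * ‖b‖ ^ 2
    set φ := fun x => Real.exp c * wt t z x * (N * (1 - c + ⟪t • x, b⟫)) with hφ
    have inner : ∀ x, ENNReal.ofReal (φ x) ≤ ∫⁻ y, ENNReal.ofReal (pwt t z x y) ∂ν := by
      intro x
      obtain ⟨i, e⟩ := hlin (t • x) (1 - c)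
      have : φ x = ∫ y, Real.exp c * wt t z x * (wt t z y * (1 - c + ⟪t • x, y⟫)) ∂ν := by
        rw [integral_const_mul, e]
      rw [this]
      refine (lower _ (i.const_mul _)).trans (lintegral_mono fun y => ENNReal.ofReal_le_ofReal ?_)
      calc Real.exp c * wt t z x * (wt t z y * (1 - c + ⟪t • x, y⟫))
          = wt t z x * wt t z y * (Real.exp c * (1 + t * ⟪x, y⟫ - c)) := by
            rw [real_inner_smul_left]; ring
        _ ≤ _ := mul_le_mul_of_nonneg_left (tangent c _)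
            (mul_pos (wt_pos t z x) (wt_pos t z y)).le
    have eφ : φ = fun x => Real.exp c * N * (wt t z x * ((1 - c) + ⟪t • b, x⟫)) := by
      funext x
      rw [hφ]
      simp only [real_inner_smul_left, real_inner_comm b x]
      ring
    obtain ⟨i, e⟩ := hlin (t • b) (1 - c)
    have hint : ∫ x, φ x ∂ν = Real.exp c * N * N := by
      rw [eφ, integral_const_mul, e, real_inner_smul_left, real_inner_self_eq_norm_sq]
      ring
    calc ENNReal.ofReal (q ^ 2 * Real.exp c) ≤ ENNReal.ofReal (∫ x, φ x ∂ν) := by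
          refine ENNReal.ofReal_le_ofReal ?_
          rw [hint, mul_assoc, ← sq, mul_comm]
          gcongr
      _ ≤ ∫⁻ x, ENNReal.ofReal (φ x) ∂ν := lower φ (by rw [eφ]; exact i.const_mul _)
      _ ≤ _ := lintegral_mono inner
  · intro z'
    set v := Real.sqrt t • (z' - z)
    set c := ⟪v, b⟫
    obtain ⟨i, e⟩ := hlin v (1 - c)
    have hc : -(Real.sqrt t * ‖b‖ * ‖z' - z‖) ≤ c := by
      have h := (abs_le.1 (abs_real_inner_le_norm v b)).1
      simp only [v, norm_smul, Real.norm_eq_abs, abs_of_nonneg (Real.sqrt_nonneg t)] at h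
      linarith
    calc ENNReal.ofReal (q * Real.exp (-(Real.sqrt t * ‖b‖ * ‖z' - z‖)))
        ≤ ENNReal.ofReal (∫ x, Real.exp c * (wt t z x * (1 - c + ⟪v, x⟫)) ∂ν) := by
          refine ENNReal.ofReal_le_ofReal ?_
          rw [integral_const_mul, e]
          have : N * (1 - c + c) = N := by ring
          rw [this, mul_comm]
          gcongr
      _ ≤ ∫⁻ x, ENNReal.ofReal (Real.exp c * (wt t z x * (1 - c + ⟪v, x⟫))) ∂ν :=
          lower _ (i.const_mul _)
      _ ≤ _ := lintegral_mono fun x => ENNReal.ofReal_le_ofReal (by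
          have h := mul_le_mul_of_nonneg_left (tangent c ⟪v, x⟫) (wt_pos t z x).le
          have e2 : wt t z x * Real.exp ⟪v, x⟫ = wt t z' x := by
            rw [wt, wt, ← Real.exp_add, real_inner_smul_left, inner_sub_left]
            ring_nf
          rw [← e2]
          linarith)

end Vale.Agent.P245
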