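import Mathlib
import Vale.Agent.P245.Channel

/-!
Separation of two sets under a linearly subgaussian midpoint log-concave measure.
-/

open MeasureTheory Set
open scoped ENNReal RealInnerProductSpace

namespace Vale.Agent.P245

variable {n : ℕ}

lemma exp_ten : (16384 : ℝ) ≤ Real.exp 10 := by
  have h : Real.exp 10 = Real.exp 1 ^ 10 := by rw [← Real.exp_nat_mul]; norm_num
  have h27 : (2.7 : ℝ) ≤ Real.exp 1 := by linarith [Real.exp_one_gt_d9]
  rw [h]
  calc (16384 : ℝ) ≤ 2.7 ^ 10 := by norm_num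
    _ ≤ _ := pow_le_pow_left₀ (by norm_num) h27 10

lemma numeric {L u v : ℝ} (h : u + 10 ≤ v) (c : ℝ) (hc : c ≤ 16384) :
    c * Real.exp (L * 0 + u) ≤ Real.exp v := by
  calc c * Real.exp (L * 0 + u) ≤ Real.exp 10 * Real.exp u := by
        rw [mul_zero, zero_add]
        exact mul_le_mul_of_nonneg_right (hc.trans exp_ten) (Real.exp_pos _).le
    _ ≤ _ := by rw [← Real.exp_add, Real.exp_le_exp]; linarith

theorem separation {ρ : Euc n → ℝ} (hρm : Measurable ρ) (hρ0 : ∀ x, 0 ≤ ρ x)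
    (hmid : ∀ x y, ρ x * ρ y ≤ ρ ((2 : ℝ)⁻¹ • (x + y)) ^ 2)
    {μ : Measure (Euc n)} [IsProbabilityMeasure μ]
    (hμ : μ = volume.withDensity fun x => ENNReal.ofReal (ρ x))
    {a : ℝ} (ha : 0 < a)
    (hsub : ∀ θ : Euc n, ‖θ‖ = 1 → ∫⁻ x, ENNReal.ofReal (Real.exp (⟪x, θ⟫ ^ 2 / a ^ 2)) ∂μ ≤ 2)
    (hn : 1 ≤ n) {L : ℝ} (hL : 1 ≤ L) {A B : Set (Euc n)} (hA : MeasurableSet A)
    (hB : MeasurableSet B) (hpA : ENNReal.ofReal (Real.exp (-L)) ≤ μ A)
    (hpB : 1 / 2 ≤ μ B) {r : ℝ} (hr : 0 ≤ r) (hsep : ∀ x ∈ A, ∀ y ∈ B, r ≤ ‖x - y‖) :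
    r ^ 2 ≤ 4096 * a ^ 2 * max (Real.sqrt (n * L)) L := by
  have hn' : (0 : ℝ) < n := by exact_mod_cast hn
  have hL0 : 0 < L := by linarith
  set τ := min (Real.sqrt (L / n)) 1 / 4 with hτ
  have hτ0 : 0 < τ := by
    rw [hτ]; exact div_pos (lt_min (Real.sqrt_pos.2 (by positivity)) one_pos) (by norm_num)
  have hτ1 : τ ≤ 1 / 4 := by rw [hτ]; linarith [min_le_right (Real.sqrt (L / n)) 1]
  have hτn : (n : ℝ) * τ ^ 2 ≤ L / 16 := by
    have h4 : 4 * τ ≤ Real.sqrt (L / n) := by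
      rw [hτ]; linarith [min_le_left (Real.sqrt (L / n)) 1]
    have h5 := pow_le_pow_left₀ (by positivity) h4 2
    rw [Real.sq_sqrt (by positivity), le_div_iff₀ hn'] at h5
    linarith
  set t := τ / a ^ 2 with htdef
  have ht : 0 < t := by positivity
  have hta : t * a ^ 2 = τ := div_mul_cancel₀ _ (pow_ne_zero 2 ha.ne')
  set Q := 4 * Real.exp (L / 16) with hQdef
  have hQ : 0 < Q := by positivity
  have hJ : ∀ l, 0 ≤ l → l ≤ 2 * t →
      ∫⁻ x, ∫⁻ y, ENNReal.ofReal (Real.exp (l * ⟪x, y⟫)) ∂μ ∂μ ≤ ENNReal.ofReal Q := by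
    intro l hl hl2
    have hla : l * a ^ 2 ≤ 2 * τ := by
      rw [← hta, ← mul_assoc]; exact mul_le_mul_of_nonneg_right hl2 (sq_nonneg a)
    refine (pair_exp ha hsub hl (by linarith)).trans (ENNReal.ofReal_le_ofReal ?_)
    rw [hQdef]
    refine mul_le_mul_of_nonneg_left (Real.exp_le_exp.2 ?_) (by norm_num)
    have h5 : (l * a ^ 2) ^ 2 ≤ (2 * τ) ^ 2 :=
      pow_le_pow_left₀ (by positivity) hla 2
    nlinarith [mul_le_mul_of_nonneg_left h5 hn'.le]
  have hJ1 := hJ t ht.le (by linarith)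
  have hJ2 := hJ (2 * t) (by positivity) le_rfl
  have hexp : Real.exp (L / 16) ≤ Real.exp L := Real.exp_le_exp.2 (by linarith)
  -- sets of good tilts
  set GA := {z | ENNReal.ofReal (Real.exp (-L) / 2) ≤ wmass μ t A z} with hGA
  set ZA := {z | ENNReal.ofReal (64 * Real.exp (3 * L)) ≤ wmass μ t univ z} with hZA
  set GB := {z | ENNReal.ofReal ((1 / 2) / 2) ≤ wmass μ t B z} with hGB
  set ZB := {z | ENNReal.ofReal (1024 * Real.exp (4 * L)) ≤ pmass μ t B z} with hZB
  set e3 := Real.exp (-(3 * L)) with he3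
  have mA : ENNReal.ofReal (e3 / 32) ≤ gam n (GA \ ZA) := by
    have h1 : ENNReal.ofReal (e3 / 16) ≤ gam n GA := by
      refine le_trans (ENNReal.ofReal_le_ofReal ?_) (pz (measurable_wmass t A) (Real.exp_pos _) hQ
        (by rw [lintegral_wmass ht.le]; exact hpA)
        ((lintegral_wmass_sq ht.le A).trans hJ1))
      rw [hQdef, le_div_iff₀ (by positivity), ← Real.exp_nat_mul, he3]
      calc Real.exp (-(3 * L)) / 16 * (4 * (4 * Real.exp (L / 16)))
          = Real.exp (-(3 * L) + L / 16) := by rw [Real.exp_add]; ring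
        _ ≤ _ := Real.exp_le_exp.2 (by push_cast; linarith)
    have h2 : gam n ZA ≤ ENNReal.ofReal (e3 / 64) := by
      refine (meas_ge_le_lintegral_div (measurable_wmass t univ).aemeasurable
        (by simp [Real.exp_pos]) ENNReal.ofReal_ne_top).trans ?_
      rw [lintegral_wmass ht.le, measure_univ, one_div, ← ENNReal.ofReal_inv_of_pos (by positivity)]
      refine le_of_eq ?_
      rw [he3, Real.exp_neg, mul_inv]
      ring_nf
    refine le_trans ?_ (le_measure_sdiff)
    calc ENNReal.ofReal (e3 / 32) ≤ ENNReal.ofReal (e3 / 16 - e3 / 64) :=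
          ENNReal.ofReal_le_ofReal (by linarith [Real.exp_pos (-(3 * L))])
      _ = ENNReal.ofReal (e3 / 16) - ENNReal.ofReal (e3 / 64) :=
          ENNReal.ofReal_sub _ (by positivity)
      _ ≤ _ := tsub_le_tsub h1 h2
  have mB : ENNReal.ofReal (e3 / 128) ≤ gam n (GB \ ZB) := by
    have h1 : ENNReal.ofReal (e3 / 64) ≤ gam n GB := by
      refine le_trans (ENNReal.ofReal_le_ofReal ?_) (pz (measurable_wmass t B)
        (show (0 : ℝ) < 1 / 2 by norm_num) hQ
        (by rw [lintegral_wmass ht.le]; simpa using hpB)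
        ((lintegral_wmass_sq ht.le B).trans hJ1))
      rw [hQdef, le_div_iff₀ (by positivity), he3]
      have : Real.exp (-(3 * L) + L / 16) ≤ 1 := Real.exp_le_one_iff.2 (by linarith)
      rw [Real.exp_add] at this
      linarith
    have h2 : gam n ZB ≤ ENNReal.ofReal (e3 / 256) := by
      refine (meas_ge_le_lintegral_div (measurable_pmass t B).aemeasurable
        (by simp [Real.exp_pos]) ENNReal.ofReal_ne_top).trans ?_
      refine (ENNReal.div_le_div_right ((lintegral_pmass ht.le B).trans hJ2) _).trans ?_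
      rw [← ENNReal.ofReal_div_of_pos (by positivity)]
      refine ENNReal.ofReal_le_ofReal ?_
      rw [hQdef, div_le_iff₀ (by positivity), he3]
      have : Real.exp L = Real.exp (-(3 * L)) * Real.exp (4 * L) := by
        rw [← Real.exp_add]; ring_nf
      linarith
    refine le_trans ?_ (le_measure_sdiff)
    calc ENNReal.ofReal (e3 / 128) ≤ ENNReal.ofReal (e3 / 64 - e3 / 256) :=
          ENNReal.ofReal_le_ofReal (by linarith [Real.exp_pos (-(3 * L))])
      _ = ENNReal.ofReal (e3 / 64) - ENNReal.ofReal (e3 / 256) :=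
          ENNReal.ofReal_sub _ (by positivity)
      _ ≤ _ := tsub_le_tsub h1 h2
  -- a pair of close good tilts
  obtain ⟨zA, hzA, zB, hzB, hd⟩ : ∃ zA ∈ GA \ ZA, ∃ zB ∈ GB \ ZB, ‖zA - zB‖ ^ 2 < 128 * L := by
    by_contra hcon
    push Not at hcon
    have h := gam_two_set (((measurable_wmass t A) measurableSet_Ici).diff
      ((measurable_wmass t univ) measurableSet_Ici))
      (((measurable_wmass t B) measurableSet_Ici).diff ((measurable_pmass t B) measurableSet_Ici))
      hcon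
    have h' := (mul_le_mul' mA mB).trans h
    rw [← ENNReal.ofReal_mul (by positivity), ENNReal.ofReal_le_ofReal_iff (Real.exp_pos _).le,
      he3] at h'
    have h4 : Real.exp (-(3 * L)) / 32 * (Real.exp (-(3 * L)) / 128)
        = Real.exp (-(6 * L)) / 4096 := by
      rw [show -(6 * L) = -(3 * L) + -(3 * L) by ring, Real.exp_add]; ring
    rw [h4, show -(128 * L / 8) = -(16 * L) by ring] at h'
    have h6 := numeric (L := L) (u := -(16 * L)) (v := -(6 * L)) (by linarith) (2 * 4096)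
      (by norm_num)
    rw [mul_zero, zero_add] at h6
    linarith [Real.exp_pos (-(16 * L))]
  obtain ⟨hzA1, hzA2⟩ := hzA
  obtain ⟨hzB1, hzB2⟩ := hzB
  simp only [hZA, hZB, mem_ofPred_eq, not_le] at hzA2 hzB2
  obtain ⟨b, hb1, hb2⟩ := exists_mean ht B zB (by norm_num : (0 : ℝ) < (1 / 2) / 2) hzB1
  have hb : t * ‖b‖ ^ 2 ≤ 14 * L := by
    have h1 := hb1.trans hzB2.le
    rw [ENNReal.ofReal_le_ofReal_iff (by positivity)] at h1
    have h2 := numeric (L := L) (u := 4 * L) (v := 14 * L) (by linarith) 16384 le_rfl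
    rw [mul_zero, zero_add] at h2
    exact Real.exp_le_exp.1 (by linarith)
  have hbd : Real.sqrt t * ‖b‖ * ‖zA - zB‖ ≤ 43 * L := by
    have h1 : (Real.sqrt t * ‖b‖ * ‖zA - zB‖) ^ 2 ≤ (43 * L) ^ 2 := by
      rw [mul_pow, mul_pow, Real.sq_sqrt ht.le]
      calc t * ‖b‖ ^ 2 * ‖zA - zB‖ ^ 2 ≤ 14 * L * (128 * L) :=
            mul_le_mul hb hd.le (sq_nonneg _) (by positivity)
        _ ≤ _ := by nlinarith
    exact (pow_le_pow_iff_left₀ (by positivity) (by positivity) two_ne_zero).1 h1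
  have hNB : ENNReal.ofReal (Real.exp (-(45 * L))) ≤ wmass μ t B zA := by
    refine le_trans (ENNReal.ofReal_le_ofReal ?_) (hb2 zA)
    have h4 : (4 : ℝ) ≤ Real.exp (2 * L) := by
      have h2 : (2 : ℝ) ≤ Real.exp L := by linarith [Real.add_one_le_exp L]
      rw [two_mul, Real.exp_add]; nlinarith
    have h5 : Real.exp (-(45 * L)) * Real.exp (2 * L) = Real.exp (-(43 * L)) := by
      rw [← Real.exp_add]; ring_nf
    have h6 := Real.exp_le_exp.2 (neg_le_neg hbd)
    nlinarith [mul_le_mul_of_nonneg_left h4 (Real.exp_pos (-(45 * L))).le]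
  have hNA : ENNReal.ofReal (Real.exp (-(2 * L))) ≤ wmass μ t A zA := by
    refine le_trans (ENNReal.ofReal_le_ofReal ?_) hzA1
    have h2 : (2 : ℝ) ≤ Real.exp L := by linarith [Real.add_one_le_exp L]
    have h5 : Real.exp (-(2 * L)) * Real.exp L = Real.exp (-L) := by
      rw [← Real.exp_add]; ring_nf
    nlinarith [mul_le_mul_of_nonneg_left h2 (Real.exp_pos (-(2 * L))).le]
  have hNZ : wmass μ t univ zA ≤ ENNReal.ofReal (Real.exp (13 * L)) := by
    refine hzA2.le.trans (ENNReal.ofReal_le_ofReal ?_)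
    have h2 := numeric (L := L) (u := 3 * L) (v := 13 * L) (by linarith) 64 (by norm_num)
    rwa [mul_zero, zero_add] at h2
  -- Prekopa-Leindler after the tilt
  set ψ := fun x => ρ x * Real.exp (Real.sqrt t * ⟪zA, x⟫ - t * ‖x‖ ^ 2 / 4) with hψ
  have hψm : Measurable ψ := hρm.mul (by fun_prop)
  have key := two_set (τ := t / 2) (by positivity) hψm
    (fun x => mul_nonneg (hρ0 x) (Real.exp_pos _).le) (K := t * r ^ 2 / 8) hA hB
    (fun x hx y hy => by
      have hp := parallelogram_law_with_norm ℝ x y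
      have hm : ‖(2 : ℝ)⁻¹ • (x + y)‖ ^ 2 = ‖x + y‖ ^ 2 / 4 := by
        rw [norm_smul, mul_pow]; norm_num; ring
      have hr2 : r ^ 2 ≤ ‖x - y‖ ^ 2 := pow_le_pow_left₀ hr (hsep x hx y hy) 2
      have hi : ⟪zA, (2 : ℝ)⁻¹ • (x + y)⟫ = (⟪zA, x⟫ + ⟪zA, y⟫) / 2 := by
        rw [real_inner_smul_right, inner_add_right]; ring
      simp only [hψ]
      rw [mul_mul_mul_comm, mul_pow, ← Real.exp_add, mul_left_comm, ← Real.exp_nat_mul,
        ← Real.exp_add]
      refine mul_le_mul (hmid x y) (Real.exp_le_exp.2 ?_) (Real.exp_pos _).le (sq_nonneg _)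
      rw [hm, hi]
      push_cast
      nlinarith [mul_le_mul_of_nonneg_left hr2 ht.le])
  have hconv : ∀ S : Set (Euc n), MeasurableSet S → wmass μ t S zA
      = ∫⁻ x in S, ENNReal.ofReal (ψ x * Real.exp (-(t / 2 * ‖x‖ ^ 2) / 2)) := by
    intro S hS
    rw [wmass, hμ, setLIntegral_withDensity_eq_setLIntegral_mul _ hρm.ennreal_ofReal
      (by unfold wt; fun_prop) hS]
    refine lintegral_congr fun x => ?_
    simp only [Pi.mul_apply]
    rw [← ENNReal.ofReal_mul (hρ0 x), hψ, mul_assoc, ← Real.exp_add, wt]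
    ring_nf
  rw [← hconv A hA, ← hconv B hB, ← setLIntegral_univ, ← hconv univ MeasurableSet.univ] at key
  have h7 := (mul_le_mul' hNA hNB).trans
    (key.trans (mul_le_mul_right (pow_le_pow_left₀ zero_le hNZ 2) _))
  rw [← ENNReal.ofReal_mul (Real.exp_pos _).le, ← ENNReal.ofReal_pow (Real.exp_pos _).le,
    ← ENNReal.ofReal_mul (Real.exp_pos _).le, ← Real.exp_add, ← Real.exp_nat_mul, ← Real.exp_add,
    ENNReal.ofReal_le_ofReal_iff (Real.exp_pos _).le, Real.exp_le_exp] at h7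
  push_cast at h7
  have h8 : t * r ^ 2 ≤ 592 * L := by linarith
  -- conclude
  have h9 : τ * r ^ 2 ≤ 592 * a ^ 2 * L := by
    have := mul_le_mul_of_nonneg_right h8 (sq_nonneg a)
    rw [mul_right_comm, hta] at this
    linarith
  have ha2 : 0 ≤ a ^ 2 := sq_nonneg a
  rcases le_total (Real.sqrt (L / n)) 1 with hc | hc
  · rw [hτ, min_eq_left hc] at h9
    have e : Real.sqrt (L / n) * Real.sqrt (n * L) = L := by
      rw [← Real.sqrt_mul (by positivity),
        show L / n * (n * L) = L ^ 2 by field_simp, Real.sqrt_sq hL0.le]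
    have hs : 0 < Real.sqrt (L / n) := Real.sqrt_pos.2 (by positivity)
    refine le_of_mul_le_mul_left ?_ hs
    calc Real.sqrt (L / n) * r ^ 2 ≤ 2368 * a ^ 2 * L := by linarith
      _ ≤ 4096 * a ^ 2 * L := mul_le_mul_of_nonneg_right (by linarith) hL0.le
      _ = Real.sqrt (L / n) * (4096 * a ^ 2 * Real.sqrt (n * L)) := by
          rw [mul_left_comm, e]
      _ ≤ _ := mul_le_mul_of_nonneg_left
          (mul_le_mul_of_nonneg_left (le_max_left _ _) (by positivity)) hs.le
  · rw [hτ, min_eq_right hc] at h9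
    calc r ^ 2 ≤ 2368 * a ^ 2 * L := by linarith
      _ ≤ 4096 * a ^ 2 * L := mul_le_mul_of_nonneg_right (by linarith) hL0.le
      _ ≤ _ := mul_le_mul_of_nonneg_left (le_max_right _ _) (by positivity)

end Vale.Agent.P245
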